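import Vale.Agent.P088.R2.H724.B1.Fam

/-!
# P088, zone B1: the set of one slot of a cell
-/

open Set Filter
open scoped ContDiff Topology

noncomputable section

namespace Vale.Agent.P088.R2.H644.B1

open Vale.Agent.P088.LR Vale.Agent.P088.HY
open Vale.Agent.P088.R2.H31.EP
open Vale.Agent.P088.R2.H464.Cu (mid)
open Vale.Agent.P088.R2.H238.C
open Vale.Agent.P088.R2.H724.B1

variable {n : ℕ} {A : ℝ} {T : Cst → ℝ → Prop}

/-- **The set of one slot**: points near the centre, in a ball of the size `R / σ`. -/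
def Us (x : Ix n A T) : Set (V n) :=
  Metric.ball x.p (3 / 2 * A + 1) ∩ Metric.ball 0 (4 / x.q.σ * x.q.R)

theorem Us_open (x : Ix n A T) : IsOpen (Us x) := Metric.isOpen_ball.inter Metric.isOpen_ball

theorem Us_convex (x : Ix n A T) : Convex ℝ (Us x) :=
  (convex_ball _ _).inter (convex_ball _ _)

theorem Us_norm {x : Ix n A T} {w : V n} (hw : w ∈ Us x) : ‖w‖ ≤ 4 / x.q.σ * x.q.R := by
  have := Metric.mem_ball.1 hw.2
  rw [dist_zero_right] at this
  exact this.le

theorem Us_near {x : Ix n A T} {w : V n} (hw : w ∈ Us x) (j : Fin n) :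
    |w j - x.p j| ≤ 3 / 2 * A + 1 := by
  have h1 := (Metric.mem_ball.1 hw.1).le
  have h2 := dist_le_pi_dist w x.p j
  rw [Real.dist_eq] at h2
  linarith

theorem e0_abs (n : ℕ) (i : Fin n) : |T3.e0 n i| ≤ 1 := by
  unfold T3.e0
  split <;> simp

/-- The points of `Gp` are in a ball of the size `R / σ`. -/
theorem Gp_ball {q : Cst} {d : Pk n} (h : PkOk q d) (T : Th q) {w : V n} (hw : w ∈ Gp q d) :
    w ∈ Metric.ball (0 : V n) (4 / q.σ * q.R) := by
  have hσ := T.σ0
  have hσ1 := T.σ1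
  have hR := T.R0
  rw [Metric.mem_ball, dist_zero_right]
  have hB : 3 / q.σ * q.R < 4 / q.σ * q.R := by
    refine mul_lt_mul_of_pos_right ?_ hR
    exact div_lt_div_of_pos_right (by norm_num) hσ
  refine lt_of_le_of_lt ((pi_norm_le_iff_of_nonneg (by positivity)).2 fun i => ?_) hB
  rw [Real.norm_eq_abs]
  have h1 := (Gp_sq h T hw).2
  have h2 : ww n q w i ^ 2 ≤ HY.sq (ww n q w) :=
    Finset.single_le_sum (f := fun i => ww n q w i ^ 2) (fun j _ => sq_nonneg _)
      (Finset.mem_univ i)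
  have h3 : |ww n q w i| ≤ 19 / 10 := by
    refine abs_le_of_sq_le_sq ?_ (by norm_num)
    linarith
  have e : w i = q.R * (T3.e0 n i + (ww n q w i - T3.e0 n i) / q.σ) := by
    rw [ww_apply]
    field_simp
    ring
  rw [e, abs_mul, abs_of_pos hR, mul_comm]
  refine mul_le_mul_of_nonneg_right ?_ hR.le
  have h4 := e0_abs n i
  have h5 : |(ww n q w i - T3.e0 n i) / q.σ| ≤ 29 / 10 / q.σ := by
    rw [abs_div, abs_of_pos hσ]
    refine div_le_div_of_nonneg_right ?_ hσ.le
    exact (abs_sub _ _).trans (by linarith)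
  refine (abs_add_le _ _).trans ?_
  have h6 : 1 ≤ 1 / 10 / q.σ := by
    rw [le_div_iff₀ hσ]; linarith
  have h7 : 1 / 10 / q.σ + 29 / 10 / q.σ = 3 / q.σ := by
    rw [← add_div]; norm_num
  linarith

/-- **The two slots and the midpoint of a point of the cell.** -/
theorem Us_of (hA0 : 0 ≤ A) (x : Ix n A T) {z : VV n} (hz : z ∈ x.Z) :
    z.1 ∈ Us x ∧ z.2 ∈ Us x ∧ mid z ∈ Us x := by
  have hg : z ∈ Gz x.q x.d := hz.1.1
  have hm : ∀ j, |mid z j - x.p j| < 3 / 2 * A := hz.2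
  have h1 : HY.sq (z.1 - z.2) ≤ 2 := by
    have h2 := r2_ge x.ok x.th x.te z
    have h3 : x.d.r2 z < 1 := hg.2.2.2
    linarith
  have hj : ∀ j, |z.1 j - z.2 j| < 2 := by
    intro j
    have h2 : (z.1 - z.2) j ^ 2 ≤ HY.sq (z.1 - z.2) :=
      Finset.single_le_sum (f := fun i => (z.1 - z.2) i ^ 2) (fun j _ => sq_nonneg _)
        (Finset.mem_univ j)
    rw [Pi.sub_apply] at h2
    refine abs_lt_of_sq_lt_sq ?_ (by norm_num)
    linarith
  have hmid : ∀ j, mid z j = 1 / 2 * (z.1 j + z.2 j) := fun j => by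
    simp only [mid, Pi.smul_apply, Pi.add_apply, smul_eq_mul]
  have key : ∀ w : V n, (∀ j, |w j - mid z j| ≤ 1) → w ∈ Metric.ball (0 : V n)
      (4 / x.q.σ * x.q.R) → w ∈ Us x := by
    intro w hw hb
    refine ⟨?_, hb⟩
    have hA : 0 < 3 / 2 * A + 1 := by positivity
    rw [Metric.mem_ball, dist_pi_lt_iff hA]
    intro j
    rw [Real.dist_eq]
    have h2 := abs_add_le (w j - mid z j) (mid z j - x.p j)
    have e : w j - mid z j + (mid z j - x.p j) = w j - x.p j := by ring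
    rw [e] at h2
    linarith [hw j, hm j]
  have hb : ∀ j, |z.1 j - mid z j| ≤ 1 ∧ |z.2 j - mid z j| ≤ 1 := fun j => by
    have h2 := abs_lt.1 (hj j)
    rw [hmid j]
    constructor
    · rw [abs_le]; constructor <;> linarith
    · rw [abs_le]; constructor <;> linarith
  exact ⟨key _ (fun j => (hb j).1) (Gp_ball x.ok x.th hg.1),
    key _ (fun j => (hb j).2) (Gp_ball x.ok x.th hg.2.1),
    key _ (fun j => by rw [sub_self, abs_zero]; exact zero_le_one) (Gp_ball x.ok x.th hg.2.2.1)⟩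

end Vale.Agent.P088.R2.H644.B1
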