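import Vale.Agent.P088.R2.H644.B1.In
import Vale.Agent.P088.R2.H644.B1.Us
import Vale.Agent.P088.R2.H464.B.Hyf

/-!
# P088, zone B1: level and frozen level in the classes of one slot, on the family of all cells

All constants depend on `n` only.
-/

open Set Filter
open scoped ContDiff Topology Matrix

noncomputable section

namespace Vale.Agent.P088.R2.H644.B1

open Vale.Agent.P088.LR Vale.Agent.P088.HY Vale.Agent.P088.R2.H31.EP
open Vale.Agent.P088.R2.H644.Pf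
open Vale.Agent.P088.R2.H657.W Vale.Agent.P088.R2.H657.B1
open Vale.Agent.P088.R2.H475 Vale.Agent.P088.R2.H724.B1
open Vale.Agent.P088.R2.H968.B Vale.Agent.P088.R2.H464.B
open Vale.Agent.P088.R2.H313.Mu (b0 b1)

variable {n : ℕ} {A : ℝ} {T : Cst → ℝ → Prop}

/-! ## Thresholds -/

/-- The constant of helper475's bound. -/
def Clv (n : ℕ) (σ : ℝ) (k : ℕ) : ℝ := by
  classical
  exact if h : 1 ≤ n ∧ 0 < σ ∧ σ ≤ 1 / 5000 then (levG_bound h.1 h.2.1 h.2.2 k).choose else 0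

/-- The thresholds. -/
structure TL (n : ℕ) (q : Cst) : Prop where
  g : Pf.Gc n q
  lv : ∀ k ≤ 4, Clv n q.σ k ≤ q.R

theorem TL.ev (n : ℕ) : EvC (TL n) := by
  have h : EvC fun q => ∀ k ≤ 4, Clv n q.σ k ≤ q.R :=
    EvC.at_R (fun q t => ∀ k ≤ 4, Clv n q.σ k ≤ t) fun q => by
      filter_upwards [eventually_ge_atTop (∑ k ∈ Finset.range 5, |Clv n q.σ k|)] with t ht k hk
      refine (le_abs_self _).trans (le_trans ?_ ht)
      exact Finset.single_le_sum (f := fun k => |Clv n q.σ k|) (fun j _ => abs_nonneg _)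
        (Finset.mem_range.2 (by omega))
  exact ((Pf.Gc.ev n).and h).mono fun q h => ⟨h.1, h.2⟩

/-! ## The level -/

theorem l2_it (hn : 1 ≤ n) {q : Cst} {d : Pk n} (h : PkOk q d) (t : TL n q) {m : ℕ} (m1 : 2 ≤ m)
    (m2 : m ≤ 6) (w : V n) : ‖iteratedFDeriv ℝ m d.l w‖ ≤ 1 := by
  obtain ⟨k, rfl⟩ : ∃ k, m = k + 2 := ⟨m - 2, by omega⟩
  have hc : 1 ≤ n ∧ 0 < q.σ ∧ q.σ ≤ 1 / 5000 := ⟨hn, t.g.σ0, t.g.σ1⟩
  have hs := (levG_bound (n := n) hc.1 hc.2.1 hc.2.2 k).choose_spec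
  have e : Clv n q.σ k = (levG_bound (n := n) hc.1 hc.2.1 hc.2.2 k).choose := by
    unfold Clv
    rw [dif_pos hc]
  rw [← e] at hs
  have hR : 0 < q.R := by linarith [t.g.R1]
  have h1 := hs.2 q.R d.kap d.Gs hR w
  rw [h.lev.lit]
  refine h1.trans ?_
  have h2 := t.lv k (by omega)
  have h3 : (q.R)⁻¹ ≤ 1 := inv_le_one_of_one_le₀ t.g.R1
  have h4 : 0 ≤ (q.R)⁻¹ := inv_nonneg.2 hR.le
  calc Clv n q.σ k * (q.R)⁻¹ ^ (k + 1) ≤ q.R * (q.R)⁻¹ ^ (k + 1) :=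
        mul_le_mul_of_nonneg_right h2 (pow_nonneg h4 _)
    _ = (q.R * (q.R)⁻¹) * (q.R)⁻¹ ^ k := by rw [pow_succ]; ring
    _ = (q.R)⁻¹ ^ k := by rw [mul_inv_cancel₀ hR.ne', one_mul]
    _ ≤ 1 := pow_le_one₀ h4 h3

/-- The gradient on a slot. -/
theorem l1_it {q : Cst} {d : Pk n} (h : PkOk q d) (t : TL n q) {w : V n}
    (hw : ‖w‖ ≤ 4 / q.σ * q.R) : ‖iteratedFDeriv ℝ 1 d.l w‖ ≤ n * 588 := by
  have hR : 0 < q.R := by linarith [t.g.R1]
  have hσ := t.g.σ0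
  have hσ1 := t.g.σ1
  have h0 : ‖iteratedFDeriv ℝ 1 d.l w‖ = ‖fderiv ℝ d.l w‖ := by
    have := norm_iteratedFDeriv_fderiv (𝕜 := ℝ) (f := d.l) (x := w) (n := 0)
    rw [← this, norm_iteratedFDeriv_zero]
  rw [h0]
  refine opn_le _ (by norm_num) fun i => ?_
  have h1 : fderiv ℝ d.l w (Pi.single i 1) = pd i d.l w := rfl
  rw [h1, h.lev.lit, pd_levG hσ hσ1 hR, abs_mul]
  have hq : 0 ≤ HY.sq (wR n q.σ q.R w) := Finset.sum_nonneg fun i _ => sq_nonneg _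
  have h2 := pp_le hσ hσ1 hq
  have h3 := pp_pos hσ hσ1 hq
  have h4 : |pp q.σ (HY.sq (wR n q.σ q.R w))| ≤ 98 := by
    rw [abs_of_nonneg (by linarith)]; exact h2
  have h5 : |wR n q.σ q.R w i| ≤ 6 := by
    have e : wR n q.σ q.R w i = T3.e0 n i + q.σ * (q.R⁻¹ * w i - T3.e0 n i) := rfl
    have h6 := e0_abs n i
    have h7 : |w i| ≤ 4 / q.σ * q.R := (norm_le_pi_norm w i).trans hw
    have h8 : |q.R⁻¹ * w i| ≤ 4 / q.σ := by
      rw [abs_mul, abs_of_pos (inv_pos.2 hR), inv_mul_le_iff₀ hR, mul_comm]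
      exact h7
    have h9 : |q.σ * (q.R⁻¹ * w i - T3.e0 n i)| ≤ q.σ * (4 / q.σ + 1) := by
      rw [abs_mul, abs_of_pos hσ]
      exact mul_le_mul_of_nonneg_left ((abs_sub _ _).trans (by linarith)) hσ.le
    have h10 : q.σ * (4 / q.σ + 1) = 4 + q.σ := by
      field_simp
    rw [e]
    refine (abs_add_le _ _).trans ?_
    linarith
  calc |pp q.σ (HY.sq (wR n q.σ q.R w))| * |wR n q.σ q.R w i| ≤ 98 * 6 :=
        mul_le_mul h4 h5 (abs_nonneg _) (by norm_num)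
    _ = 588 := by norm_num

/-- All orders. -/
theorem l12_it (hn : 1 ≤ n) {q : Cst} {d : Pk n} (h : PkOk q d) (t : TL n q) {m : ℕ} (m1 : 1 ≤ m)
    (m2 : m ≤ 6) {w : V n} (hw : ‖w‖ ≤ 4 / q.σ * q.R) :
    ‖iteratedFDeriv ℝ m d.l w‖ ≤ n * 588 := by
  rcases Nat.eq_or_lt_of_le m1 with e | e
  · rw [← e]; exact l1_it h t hw
  · refine (l2_it hn h t e m2 w).trans ?_
    have : (1 : ℝ) ≤ n := by exact_mod_cast hn
    linarith

/-- The correction, all orders. -/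
theorem m_it (hn : 1 ≤ n) : ∃ C, 1 ≤ C ∧ ∀ (q : Cst) (d : Pk n), PkOk q d → TL n q → ∀ m, 1 ≤ m →
    m ≤ 6 → ∀ w : V n, ‖w‖ ≤ 4 / q.σ * q.R →
      ‖iteratedFDeriv ℝ m (fun w => d.μc q (d.l w)) w‖ ≤ C * b0 1 q.M₀ := by
  have n1 : (1 : ℝ) ≤ n := by exact_mod_cast hn
  obtain ⟨B, B1, hB⟩ := max_const 6 (P := fun j C => ∀ (q : Cst), Pf.Gc n q → ∀ d : Pk n,
    PkOk q d → ∀ t, |iteratedDeriv (j + 1) (d.μc q) t| ≤ C * b0 1 q.M₀)
    (fun j C C' h1 h2 q g d h t => (h2 q g d h t).trans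
      (mul_le_mul_of_nonneg_right h1 (b0_pos g).le))
    fun j => by
      obtain ⟨C, -, hC⟩ := μc_bd n j
      exact ⟨C, hC⟩
  obtain ⟨C, C1, hC⟩ := max_const 6 (P := fun j C => (j.factorial : ℝ) * B * (n * 588) ^ j ≤ C)
    (fun j C C' h1 h2 => h2.trans h1) fun j => ⟨_, le_rfl⟩
  refine ⟨C, C1, fun q d h t m m1 m2 w hw => ?_⟩
  have hb := (b0_pos t.g).le
  have h2 := comp_it (g := d.μc q) (f := d.l) (Pk.μc_smooth d q h.ph.isμ.sm) h.lev.sm (x := w) m1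
    (C := B * b0 1 q.M₀) (D := n * 588) (mul_nonneg (by linarith) hb) (by linarith)
    (fun i i1 i2 => by
      obtain ⟨j, rfl⟩ : ∃ j, i = j + 1 := ⟨i - 1, by omega⟩
      exact hB j (by omega) q t.g d h _)
    fun i i1 i2 => l12_it hn h t i1 (i2.trans m2) hw
  refine h2.trans ?_
  calc (m.factorial : ℝ) * (B * b0 1 q.M₀) * (n * 588) ^ m
      = (m.factorial : ℝ) * B * (n * 588) ^ m * b0 1 q.M₀ := by ring
    _ ≤ C * b0 1 q.M₀ := mul_le_mul_of_nonneg_right (hC m m2) hb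

/-- `2 (l + μ_c ∘ l)`, all orders. -/
theorem Lm_it (hn : 1 ≤ n) : ∃ C, 1 ≤ C ∧ ∀ (q : Cst) (d : Pk n), PkOk q d → TL n q → ∀ m, 1 ≤ m →
    m ≤ 6 → ∀ w : V n, ‖w‖ ≤ 4 / q.σ * q.R →
      ‖iteratedFDeriv ℝ m (fun w => 2 * ff q d w) w‖ ≤ C := by
  have n1 : (1 : ℝ) ≤ n := by exact_mod_cast hn
  obtain ⟨B, B1, hB⟩ := m_it hn
  refine ⟨2 * (n * 588 + B), by linarith, fun q d h t m m1 m2 w hw => ?_⟩
  have sl : ContDiffAt ℝ (m : ℕ∞) d.l w := h.lev.sm.contDiffAt.of_le (by exact_mod_cast le_top)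
  have sm : ContDiffAt ℝ (m : ℕ∞) (fun w => d.μc q (d.l w)) w :=
    ((Pk.μc_smooth d q h.ph.isμ.sm).comp h.lev.sm).contDiffAt.of_le (by exact_mod_cast le_top)
  have e : iteratedFDeriv ℝ m (fun w => 2 * ff q d w) w =
      (2 : ℝ) • (iteratedFDeriv ℝ m d.l w + iteratedFDeriv ℝ m (fun w => d.μc q (d.l w)) w) := by
    rw [← iteratedFDeriv_add_apply sl sm]
    exact iteratedFDeriv_const_smul_apply (a := (2 : ℝ)) (sl.add sm)
  rw [e, norm_smul, Real.norm_eq_abs, abs_of_pos (by norm_num : (0 : ℝ) < 2)]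
  refine mul_le_mul_of_nonneg_left ((norm_add_le _ _).trans (add_le_add ?_ ?_)) (by norm_num)
  · exact l12_it hn h t m1 m2 hw
  · refine (hB q d h t m m1 m2 w hw).trans ?_
    have h1 : b0 1 q.M₀ ≤ 1 := by linarith [h.ph.b0]
    exact mul_le_of_le_one_right (by linarith) h1

/-! ## The frame -/

/-- The columns of the frame matrix. -/
theorem col_bd {q : Cst} {d : Pk n} (h : PkOk q d) (t : TL n q) {A : ℝ} {p : V n}
    {c : H961.F.CD n} (f : Fro q d A p c) (i : Fin n) : ‖c.M.col i‖ ≤ 2 := by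
  refine (pi_norm_le_iff_of_nonneg (by norm_num)).2 fun k => ?_
  rw [Real.norm_eq_abs]
  have h1 : ∑ j, c.M k j * c.M k j = d.s₁ p k k := by
    have := congrFun (congrFun f.M k) k
    rw [Matrix.mul_apply] at this
    exact this
  have h2 : |d.s₁ p k k - (1 : Matrix (Fin n) (Fin n) ℝ) k k| ≤ q.ε := by
    have := (Rg.t1 h.rg).cl k k 0 (Nat.zero_le _) p
    simpa using this
  have h3 : c.M k i * c.M k i ≤ ∑ j, c.M k j * c.M k j :=
    Finset.single_le_sum (f := fun j => c.M k j * c.M k j) (fun j _ => mul_self_nonneg _)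
      (Finset.mem_univ i)
  rw [Matrix.one_apply_eq] at h2
  have h4 := (abs_le.1 h2).2
  have h5 := t.g.ε1
  refine abs_le_of_sq_le_sq ?_ (by norm_num)
  have h6 : (c.M.col i) k = c.M k i := rfl
  rw [h6]
  nlinarith

/-! ## The classes on the family of all cells -/

/-- **Field `sL`.** -/
theorem sL_ix : (G1 (Mc fun x : Ix n A T => x.c) Us Us_open).Sm fun x => x.d.l :=
  fun x => x.ok.lev.sm.contDiffOn

/-- **Field `sLm`.** -/
theorem sLm_ix : (G1 (Mc fun x : Ix n A T => x.c) Us Us_open).Sm fun x w => 2 * ff x.q x.d w :=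
  fun x => (contDiff_const.mul (x.ok.lev.sm.add
    ((Pk.μc_smooth x.d x.q x.ok.ph.isμ.sm).comp x.ok.lev.sm))).contDiffOn

/-- **Fields `cv`, `m1`, `m2`.** -/
theorem cv_ix (x : Ix n A T) : Convex ℝ (Us x) := Us_convex x

theorem m1_ix (hA : 0 ≤ A) (x : Ix n A T) (z : VV n) (hz : z ∈ x.Z) : z.1 ∈ Us x :=
  (Us_of hA x hz).1

theorem m2_ix (hA : 0 ≤ A) (x : Ix n A T) (z : VV n) (hz : z ∈ x.Z) : z.2 ∈ Us x :=
  (Us_of hA x hz).2.1

variable (hT : ∀ q η, T q η → TL n q)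
include hT

theorem hM_ix : ∃ C, ∀ (x : Ix n A T) (i : Fin n), ‖Mc (fun x : Ix n A T => x.c) x i‖ ≤ C :=
  ⟨2, fun x i => col_bd x.ok (hT _ _ x.t) x.fr i⟩

/-- **Field `hLm`.** -/
theorem hLm_ix (hn : 1 ≤ n) (i : Fin n) : (G1 (Mc fun x : Ix n A T => x.c) Us Us_open).Gc 3
    (cp fun _ => 1) (D1 (Mc fun x : Ix n A T => x.c) i fun x w => 2 * ff x.q x.d w) := by
  obtain ⟨C, C1, hC⟩ := Lm_it hn
  refine gc_D1_of_it (hM_ix hT) (fun _ => zero_le_one) sLm_ix ⟨C, fun m m1 m2 x w hw => ?_⟩ i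
  rw [mul_one]
  exact hC x.q x.d x.ok (hT _ _ x.t) m m1 (by omega) w (Us_norm hw)

/-- **Field `hL`.** -/
theorem hL_ix (hn : 1 ≤ n) (i j : Fin n) : (G1 (Mc fun x : Ix n A T => x.c) Us Us_open).Gc 4
    (cp fun _ => 1) (D1 (Mc fun x : Ix n A T => x.c) j
      (D1 (Mc fun x : Ix n A T => x.c) i fun x => x.d.l)) := by
  have hM := hM_ix (A := A) hT
  have sL := sL_ix (n := n) (A := A) (T := T)
  have hM' : ∀ (x : Ix n A T) (i : Fin n), ∃ c, ‖Mc (fun x : Ix n A T => x.c) x i‖ ≤ c :=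
    fun x i => ⟨_, le_rfl⟩
  refine gc_of_it hM (fun _ => zero_le_one) (sm_D1 (sm_D1 sL i) j) ⟨4, fun m hm x w hw => ?_⟩
  have h1 := it_D1 hM' (sm_D1 sL i) j m x hw
  have h2 := it_D1 hM' sL i (m + 1) x hw
  have h3 := l2_it hn x.ok (hT _ _ x.t) (m := m + 1 + 1) (by omega) (by omega) w
  have h4 : ∀ i, ‖Mc (fun x : Ix n A T => x.c) x i‖ ≤ 2 := fun i =>
    col_bd x.ok (hT _ _ x.t) x.fr i
  rw [mul_one]
  refine h1.trans ?_
  calc ‖Mc (fun x : Ix n A T => x.c) x j‖ * ‖iteratedFDeriv ℝ (m + 1)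
        (D1 (Mc fun x : Ix n A T => x.c) i (fun x => x.d.l) x) w‖ ≤ 2 * (2 * 1) := by
        refine mul_le_mul (h4 j) (h2.trans ?_) (norm_nonneg _) (by norm_num)
        exact mul_le_mul (h4 i) h3 (norm_nonneg _) (by norm_num)
    _ = 4 := by norm_num

end Vale.Agent.P088.R2.H644.B1
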