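import Vale.Agent.P088.R2.H644.N.PkN
import Vale.Agent.P088.R2.H657.B1.Met

/-!
# P088, zone B1: the functions of the package in the graded classes of one slot

Level `l`, correction `μ_c ∘ l`, frozen level `l + μ_c ∘ l`, slope `Φ`, profile `S`, uniformly in the
family `Fa n q₀`.
-/

open Set Filter
open scoped ContDiff Topology Matrix

noncomputable section

namespace Vale.Agent.P088.R2.H644.B1

open Vale.Agent.P088.LR Vale.Agent.P088.HY Vale.Agent.P088.R2.H31.EP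
open Vale.Agent.P088.R2.H644.Pf
open Vale.Agent.P088.R2.H657.W
open Vale.Agent.P088.R2.H313.Mu (b0 b1)

variable {n k : ℕ} {q q₀ : Cst} {d : Pk n}

/-! ## Compositions -/

/-- Derivatives of positive order of a composition. -/
theorem comp_it {F : Type*} [NormedAddCommGroup F] [NormedSpace ℝ F] {g : ℝ → ℝ} {f : F → ℝ}
    (hg : ContDiff ℝ ∞ g) (hf : ContDiff ℝ ∞ f) {x : F} {m : ℕ} (hm : 1 ≤ m) {C D : ℝ} (hC0 : 0 ≤ C)
    (hD1 : 1 ≤ D)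
    (hC : ∀ i, 1 ≤ i → i ≤ m → |iteratedDeriv i g (f x)| ≤ C)
    (hD : ∀ i, 1 ≤ i → i ≤ m → ‖iteratedFDeriv ℝ i f x‖ ≤ D) :
    ‖iteratedFDeriv ℝ m (fun x => g (f x)) x‖ ≤ m.factorial * C * D ^ m := by
  have h1 : ContDiff ℝ ∞ fun t => g t - g (f x) := hg.sub contDiff_const
  have e1 : iteratedFDeriv ℝ m (fun y => g (f y)) x =
      iteratedFDeriv ℝ m ((fun t => g t - g (f x)) ∘ f) x := by
    obtain ⟨j, rfl⟩ : ∃ j, m = j + 1 := ⟨m - 1, by omega⟩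
    have e2 : (fun t => g t - g (f x)) ∘ f = fun y => g (f y) - g (f x) := rfl
    have h2 : ContDiff ℝ ∞ fun y => g (f y) := hg.comp hf
    rw [e2]
    have h3 : iteratedFDeriv ℝ (j + 1) (fun y => g (f y) - g (f x)) x =
        iteratedFDeriv ℝ (j + 1) (fun y => g (f y)) x -
          iteratedFDeriv ℝ (j + 1) (fun _ : F => g (f x)) x :=
      iteratedFDeriv_sub_apply (h2.contDiffAt.of_le (by exact_mod_cast le_top))
        contDiffAt_const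
    rw [h3, iteratedFDeriv_const_of_ne (by omega)]
    simp
  rw [e1]
  refine norm_iteratedFDeriv_comp_le (n := m) (N := (m : ℕ∞)) ?_ ?_ le_rfl x ?_ ?_
  · exact h1.of_le (by exact_mod_cast le_top)
  · exact hf.of_le (by exact_mod_cast le_top)
  · intro i hi
    rw [norm_iteratedFDeriv_eq_norm_iteratedDeriv, Real.norm_eq_abs]
    rcases i with _ | i
    · simpa using hC0
    · have e3 : iteratedDeriv (i + 1) (fun t => g t - g (f x)) (f x) =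
          iteratedDeriv (i + 1) g (f x) := by
        rw [iteratedDeriv_succ', iteratedDeriv_succ']
        congr 1
        funext t
        rw [deriv_sub_const]
      rw [e3]
      exact hC (i + 1) (by omega) hi
  · intro i hi1 hi
    exact (hD i hi1 hi).trans (le_self_pow₀ hD1 (by omega))

/-- Finitely many constants. -/
theorem max_const (K : ℕ) {P : ℕ → ℝ → Prop} (mono : ∀ j C C', C ≤ C' → P j C → P j C')
    (h : ∀ j, ∃ C, P j C) : ∃ C, 1 ≤ C ∧ ∀ j ≤ K, P j C := by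
  choose C hC using h
  refine ⟨1 + ∑ j ∈ Finset.range (K + 1), |C j|, ?_, fun j hj => mono j _ _ ?_ (hC j)⟩
  · have := Finset.sum_nonneg (s := Finset.range (K + 1)) (f := fun j => |C j|)
      fun j _ => abs_nonneg _
    linarith
  · have h1 := Finset.single_le_sum (f := fun j => |C j|) (fun j _ => abs_nonneg _)
      (Finset.mem_range.2 (by omega : j < K + 1))
    have h2 := le_abs_self (C j)
    have h3 : |C j| ≤ ∑ j ∈ Finset.range (K + 1), |C j| := h1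
    linarith

theorem Ri (a : Fa n q₀) : 0 < (a.q.R)⁻¹ := inv_pos.2 (by linarith [a.g.R1])

theorem Ri1 (a : Fa n q₀) : (a.q.R)⁻¹ ≤ 1 := inv_le_one_of_one_le₀ a.g.R1

/-! ## The level -/

theorem l_sm (a : Fa n q₀) : ContDiff ℝ ∞ a.d.l := a.ok.lev.sm

/-- **The level.** -/
theorem l_it (hn : 1 ≤ n) (q₀ : Cst) (K : ℕ) : ∃ C, 1 ≤ C ∧ ∀ m ≤ K,
    ∀ a : Fa n q₀, ∀ w ∈ OO a.q a.d,
      ‖iteratedFDeriv ℝ (m + 1) a.d.l w‖ ≤ C * (a.q.R)⁻¹ ^ m := by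
  refine max_const K (P := fun m C => ∀ a : Fa n q₀, ∀ w ∈ OO a.q a.d,
      ‖iteratedFDeriv ℝ (m + 1) a.d.l w‖ ≤ C * (a.q.R)⁻¹ ^ m) ?_ ?_
  · intro m C C' h1 h2 a w hw
    exact (h2 a w hw).trans (mul_le_mul_of_nonneg_right h1 (pow_nonneg (Ri a).le _))
  · intro m
    obtain ⟨C, hC⟩ := (s_dl hn q₀ m).bd m le_rfl
    refine ⟨C, fun a w hw => ?_⟩
    have := hC a w hw
    rw [norm_iteratedFDeriv_fderiv, one_mul] at this
    exact this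

/-- The level: all derivatives of positive order are bounded. -/
theorem l_it1 (hn : 1 ≤ n) (q₀ : Cst) (K : ℕ) : ∃ C, 1 ≤ C ∧ ∀ m, 1 ≤ m → m ≤ K →
    ∀ a : Fa n q₀, ∀ w ∈ OO a.q a.d, ‖iteratedFDeriv ℝ m a.d.l w‖ ≤ C := by
  obtain ⟨C, C1, hC⟩ := l_it hn q₀ K
  refine ⟨C, C1, fun m h1 hm a w hw => ?_⟩
  obtain ⟨j, rfl⟩ : ∃ j, m = j + 1 := ⟨m - 1, by omega⟩
  refine (hC j (by omega) a w hw).trans ?_
  calc C * (a.q.R)⁻¹ ^ j ≤ C * 1 :=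
        mul_le_mul_of_nonneg_left (pow_le_one₀ (Ri a).le (Ri1 a)) (by linarith)
    _ = C := mul_one C

/-- The level: the derivatives of order at least two have the size `1 / R`. -/
theorem l_it2 (hn : 1 ≤ n) (q₀ : Cst) (K : ℕ) : ∃ C, 1 ≤ C ∧ ∀ m, 2 ≤ m → m ≤ K →
    ∀ a : Fa n q₀, ∀ w ∈ OO a.q a.d, ‖iteratedFDeriv ℝ m a.d.l w‖ ≤ C * (a.q.R)⁻¹ := by
  obtain ⟨C, C1, hC⟩ := l_it hn q₀ K
  refine ⟨C, C1, fun m h1 hm a w hw => ?_⟩
  obtain ⟨j, rfl⟩ : ∃ j, m = j + 1 + 1 := ⟨m - 2, by omega⟩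
  refine (hC (j + 1) (by omega) a w hw).trans (mul_le_mul_of_nonneg_left ?_ (by linarith))
  calc (a.q.R)⁻¹ ^ (j + 1) = (a.q.R)⁻¹ ^ j * (a.q.R)⁻¹ := pow_succ _ _
    _ ≤ 1 * (a.q.R)⁻¹ :=
        mul_le_mul_of_nonneg_right (pow_le_one₀ (Ri a).le (Ri1 a)) (Ri a).le
    _ = _ := one_mul _

/-! ## The correction and the frozen level -/

/-- `μ_c ∘ l`. -/
def ml (a : Fa n q₀) (w : V n) : ℝ := a.d.μc a.q (a.d.l w)

/-- `l_c = l + μ_c ∘ l`. -/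
def lc (a : Fa n q₀) (w : V n) : ℝ := a.d.l w + ml a w

theorem μc_sm (a : Fa n q₀) : ContDiff ℝ ∞ (a.d.μc a.q) :=
  Pk.μc_smooth a.d a.q a.ok.ph.isμ.sm

theorem ml_sm (a : Fa n q₀) : ContDiff ℝ ∞ (ml a) := (μc_sm a).comp (l_sm a)

theorem lc_sm (a : Fa n q₀) : ContDiff ℝ ∞ (lc a) := (l_sm a).add (ml_sm a)

theorem b0n (a : Fa n q₀) : 0 < b0 1 a.q.M₀ := b0_pos a.g

theorem b0_8 (a : Fa n q₀) : b0 1 a.q.M₀ ≤ 1 / 8 := a.ok.ph.b0

theorem μc_8 (a : Fa n q₀) (t : ℝ) : |a.d.μc a.q t| ≤ 1 / 8 :=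
  (Pk.μc_abs a.d a.q t).trans (a.ok.ph.μb t)

theorem ml_8 (a : Fa n q₀) (w : V n) : |ml a w| ≤ 1 / 8 := μc_8 a _

/-- **The correction.** -/
theorem ml_it (hn : 1 ≤ n) (q₀ : Cst) (K : ℕ) : ∃ C, 1 ≤ C ∧ ∀ m, 1 ≤ m → m ≤ K →
    ∀ a : Fa n q₀, ∀ w ∈ OO a.q a.d,
      ‖iteratedFDeriv ℝ m (ml a) w‖ ≤ C * b0 1 a.q.M₀ := by
  obtain ⟨A, A1, hA⟩ := l_it1 hn q₀ K
  obtain ⟨B, B1, hB⟩ := max_const K (P := fun j C => ∀ a : Fa n q₀, ∀ t,
    |iteratedDeriv (j + 1) (a.d.μc a.q) t| ≤ C * b0 1 a.q.M₀)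
    (fun j C C' h1 h2 a t => (h2 a t).trans (mul_le_mul_of_nonneg_right h1 (b0n a).le))
    fun j => by
      obtain ⟨C, -, hC⟩ := μc_bd n j
      exact ⟨C, fun a t => hC a.q a.g a.d a.ok t⟩
  obtain ⟨C, C1, hC⟩ := max_const K (P := fun j C => (j.factorial : ℝ) * B * A ^ j ≤ C)
    (fun j C C' h1 h2 => h2.trans h1) fun j => ⟨_, le_rfl⟩
  refine ⟨C, C1, fun m h1 hm a w hw => ?_⟩
  have h2 := comp_it (μc_sm a) (l_sm a) (x := w) h1 (C := B * b0 1 a.q.M₀) (D := A)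
    (mul_nonneg (by linarith) (b0n a).le) A1 (fun i i1 i2 => by
      obtain ⟨j, rfl⟩ : ∃ j, i = j + 1 := ⟨i - 1, by omega⟩
      exact hB j (by omega) a _) fun i i1 i2 => hA i i1 (i2.trans hm) a w hw
  refine h2.trans ?_
  calc (m.factorial : ℝ) * (B * b0 1 a.q.M₀) * A ^ m
      = (m.factorial : ℝ) * B * A ^ m * b0 1 a.q.M₀ := by ring
    _ ≤ C * b0 1 a.q.M₀ := mul_le_mul_of_nonneg_right (hC m hm) (b0n a).le

theorem lc_it (hn : 1 ≤ n) (q₀ : Cst) (K : ℕ) : ∃ C, 1 ≤ C ∧ ∀ m, 1 ≤ m → m ≤ K →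
    ∀ a : Fa n q₀, ∀ w ∈ OO a.q a.d, ‖iteratedFDeriv ℝ m (lc a) w‖ ≤ C := by
  obtain ⟨A, A1, hA⟩ := l_it1 hn q₀ K
  obtain ⟨B, B1, hB⟩ := ml_it hn q₀ K
  refine ⟨A + B, by linarith, fun m h1 hm a w hw => ?_⟩
  have e : iteratedFDeriv ℝ m (lc a) w =
      iteratedFDeriv ℝ m a.d.l w + iteratedFDeriv ℝ m (ml a) w :=
    iteratedFDeriv_add_apply ((l_sm a).contDiffAt.of_le (by exact_mod_cast le_top))
      ((ml_sm a).contDiffAt.of_le (by exact_mod_cast le_top))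
  rw [e]
  refine (norm_add_le _ _).trans (add_le_add (hA m h1 hm a w hw) ((hB m h1 hm a w hw).trans ?_))
  have := b0_8 a
  nlinarith

theorem lc_abs (a : Fa n q₀) (w : V n) : |lc a w - a.d.l w| ≤ 1 / 8 := by
  have : lc a w - a.d.l w = ml a w := by unfold lc; ring
  rw [this]
  exact ml_8 a w

end Vale.Agent.P088.R2.H644.B1
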