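import Vale.Agent.P088.R2.H644.B1.In
import Vale.Agent.P088.R2.H238.C.Nu

/-!
# P088, zone B1: slope and profile of the package, all derivatives
-/

open Set Filter
open scoped ContDiff Topology Matrix

noncomputable section

namespace Vale.Agent.P088.R2.H644.B1

open Vale.Agent.P088.LR Vale.Agent.P088.HY Vale.Agent.P088.R2.H31.EP
open Vale.Agent.P088.R2.H644 Vale.Agent.P088.R2.H644.Pf
open Vale.Agent.P088.R2.H657.W
open Vale.Agent.P088.R2.H313.Mu (b0 b1)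
open Vale.Agent.P088.R2.H968.B (Fd1)

variable {n k : ℕ} {q q₀ : Cst} {d : Pk n}

/-! ## Families of iterated derivatives -/

theorem it_sm {f : ℝ → ℝ} (hf : ContDiff ℝ ∞ f) (m : ℕ) : ContDiff ℝ ∞ (iteratedDeriv m f) := by
  induction m with
  | zero => simpa using hf
  | succ m ih =>
    rw [iteratedDeriv_succ]
    exact (contDiff_infty_iff_deriv.1 ih).2

theorem it_hd {f : ℝ → ℝ} (hf : ContDiff ℝ ∞ f) (m : ℕ) (t : ℝ) :
    HasDerivAt (iteratedDeriv m f) (iteratedDeriv (m + 1) f t) t := by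
  have h := ((it_sm hf m).differentiable (by simp) t).hasDerivAt
  rwa [← iteratedDeriv_succ] at h

/-- The iterated derivatives form a family `Fd1`. -/
theorem fd1_it {α : Type*} {f : α → ℝ → ℝ} (hf : ∀ x, ContDiff ℝ ∞ (f x)) :
    Fd1 fun m x => iteratedDeriv m (f x) where
  sm m x := it_sm (hf x) m
  d m x t := it_hd (hf x) m t

/-! ## The slope -/

theorem Φ_sm (a : Fa n q₀) : ContDiff ℝ ∞ a.d.Φ := a.ok.top.sm

theorem dΦ_pos (a : Fa n q₀) (t : ℝ) : 0 < deriv a.d.Φ t := (M_pos a.g).trans_le (N_ge a.ok t)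

theorem dΦ_1 (a : Fa n q₀) (t : ℝ) : 1 ≤ deriv a.d.Φ t :=
  le_trans (by linarith [a.g.M1, Real.add_one_le_exp (1 : ℝ)]) (N_ge a.ok t)

/-- **The slope**: all derivatives of positive order are controlled by the first one. -/
theorem Φ_it (n : ℕ) (q₀ : Cst) (K : ℕ) : ∃ C, 1 ≤ C ∧ ∀ m, 1 ≤ m → m ≤ K →
    ∀ a : Fa n q₀, ∀ t, |iteratedDeriv m a.d.Φ t| ≤ C * deriv a.d.Φ t := by
  obtain ⟨C, C1, hC⟩ := max_const K (P := fun m C => 1 ≤ m → ∀ a : Fa n q₀, ∀ t,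
    |iteratedDeriv m a.d.Φ t| ≤ C * deriv a.d.Φ t)
    (fun j C C' h1 h2 hj a t => (h2 hj a t).trans
      (mul_le_mul_of_nonneg_right h1 (dΦ_pos a t).le)) fun m => by
    rcases m with _ | _ | j
    · exact ⟨0, fun h => absurd h (by omega)⟩
    · refine ⟨1, fun _ a t => ?_⟩
      rw [zero_add, iteratedDeriv_one, abs_of_pos (dΦ_pos a t), one_mul]
    · refine ⟨|q₀.phL.1 j| * (|q₀.L| + 1 / 20), fun _ a t => ?_⟩
      have h1 := a.ok.top.kL j t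
      have h2 := a.ok.top.k2 t
      have h3 := (a.ok.top.k0 t).le
      have h4 := (dΦ_pos a t).le
      rw [a.phL] at h1
      rw [a.L] at h2
      have h5 : deriv (deriv a.d.Φ) t ≤ (|q₀.L| + 1 / 20) * deriv a.d.Φ t :=
        h2.trans (mul_le_mul_of_nonneg_right (by linarith [le_abs_self q₀.L]) h4)
      calc |iteratedDeriv (j + 2) a.d.Φ t| ≤ |q₀.phL.1 j| * deriv (deriv a.d.Φ) t :=
            h1.trans (mul_le_mul_of_nonneg_right (le_abs_self _) h3)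
        _ ≤ |q₀.phL.1 j| * ((|q₀.L| + 1 / 20) * deriv a.d.Φ t) :=
            mul_le_mul_of_nonneg_left h5 (abs_nonneg _)
        _ = _ := by ring
  exact ⟨C, C1, fun m h1 hm a t => hC m hm h1 a t⟩

/-- The slope at two levels. -/
theorem N_cmp (n : ℕ) (q₀ : Cst) : ∃ C, 1 ≤ C ∧ ∀ a : Fa n q₀, ∀ s t, |s - t| ≤ 2 →
    deriv a.d.Φ s ≤ C * deriv a.d.Φ t := by
  set A := |q₀.L| + 1 / 20 with hA
  have hA0 : 0 ≤ A := by positivity
  refine ⟨Real.exp (A * 2), Real.one_le_exp (by positivity), fun a s t h => ?_⟩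
  have h1 := H238.C.exp_comp (f := deriv a.d.Φ) (C := A) (a := max s t) hA0
    (fun u => by
      have := it_hd (Φ_sm a) 1 u
      rwa [iteratedDeriv_one] at this) (fun u _ => by
      have e : iteratedDeriv (1 + 1) a.d.Φ u = deriv (deriv a.d.Φ) u := by
        rw [iteratedDeriv_succ, iteratedDeriv_one]
      rw [e, abs_of_pos (a.ok.top.k0 u)]
      refine (a.ok.top.k2 u).trans (mul_le_mul_of_nonneg_right ?_ (dΦ_pos a u).le)
      rw [a.L]
      linarith [le_abs_self q₀.L]) (le_max_left s t) (le_max_right s t)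
  calc deriv a.d.Φ s ≤ deriv a.d.Φ t * Real.exp (A * |s - t|) := h1
    _ ≤ deriv a.d.Φ t * Real.exp (A * 2) :=
        mul_le_mul_of_nonneg_left (Real.exp_le_exp.2 (mul_le_mul_of_nonneg_left h hA0))
          (dΦ_pos a t).le
    _ = _ := mul_comm _ _

/-- A difference of values. -/
theorem df_le {f : ℝ → ℝ} (hf : ContDiff ℝ ∞ f) {s t B : ℝ}
    (hB : ∀ v ∈ uIcc s t, |deriv f v| ≤ B) : |f s - f t| ≤ B * |s - t| := by
  have h := (convex_uIcc s t).norm_image_sub_le_of_norm_deriv_le (f := f) (C := B)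
    (fun v _ => hf.differentiable (by simp) v) (fun v hv => by
      rw [Real.norm_eq_abs]; exact hB v hv) (x := t) (y := s) right_mem_uIcc left_mem_uIcc
  rw [Real.norm_eq_abs, Real.norm_eq_abs] at h
  exact h

theorem mem_near {s t v : ℝ} (h : v ∈ uIcc s t) : |v - t| ≤ |s - t| := by
  rw [mem_uIcc] at h
  rcases h with ⟨h1, h2⟩ | ⟨h1, h2⟩
  · rw [abs_of_nonpos (by linarith), abs_of_nonpos (by linarith)]; linarith
  · rw [abs_of_nonneg (by linarith), abs_of_nonneg (by linarith)]; linarith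

/-- **Differences of the slope**, all orders. -/
theorem Φ_df (n : ℕ) (q₀ : Cst) (K : ℕ) : ∃ C, 1 ≤ C ∧ ∀ m ≤ K, ∀ a : Fa n q₀, ∀ s t,
    |s - t| ≤ 2 → |iteratedDeriv m a.d.Φ s - iteratedDeriv m a.d.Φ t| ≤
      C * deriv a.d.Φ t * |s - t| := by
  obtain ⟨A, A1, hA⟩ := Φ_it n q₀ (K + 1)
  obtain ⟨B, B1, hB⟩ := N_cmp n q₀
  refine ⟨A * B, by nlinarith, fun m hm a s t h => df_le (it_sm (Φ_sm a) m) fun v hv => ?_⟩
  rw [← iteratedDeriv_succ]
  refine (hA (m + 1) (by omega) (by omega) a v).trans ?_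
  have h1 := hB a v t ((mem_near hv).trans h)
  calc A * deriv a.d.Φ v ≤ A * (B * deriv a.d.Φ t) := mul_le_mul_of_nonneg_left h1 (by linarith)
    _ = _ := by ring

/-- **The frozen slope** `Φ(2 l_c)`. -/
theorem Φlc_it (hn : 1 ≤ n) (q₀ : Cst) (K : ℕ) : ∃ C, 1 ≤ C ∧ ∀ m, 1 ≤ m → m ≤ K →
    ∀ a : Fa n q₀, ∀ w ∈ OO a.q a.d,
      ‖iteratedFDeriv ℝ m (fun w => a.d.Φ (2 * lc a w)) w‖ ≤ C * deriv a.d.Φ (2 * lc a w) := by
  obtain ⟨A, A1, hA⟩ := lc_it hn q₀ K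
  obtain ⟨B, B1, hB⟩ := Φ_it n q₀ K
  obtain ⟨C, C1, hC⟩ := max_const K (P := fun j C => (j.factorial : ℝ) * B * (2 * A) ^ j ≤ C)
    (fun j C C' h1 h2 => h2.trans h1) fun j => ⟨_, le_rfl⟩
  refine ⟨C, C1, fun m h1 hm a w hw => ?_⟩
  have s2 : ContDiff ℝ ∞ fun w => 2 * lc a w := contDiff_const.mul (lc_sm a)
  have h2 := comp_it (Φ_sm a) s2 (x := w) h1 (C := B * deriv a.d.Φ (2 * lc a w)) (D := 2 * A)
    (mul_nonneg (by linarith) (dΦ_pos a _).le) (by linarith) (fun i i1 i2 =>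
      hB i i1 (i2.trans hm) a _) fun i i1 i2 => by
      have e : iteratedFDeriv ℝ i (fun w => 2 * lc a w) w =
          (2 : ℝ) • iteratedFDeriv ℝ i (lc a) w :=
        iteratedFDeriv_const_smul_apply (a := (2 : ℝ))
          ((lc_sm a).contDiffAt.of_le (by exact_mod_cast le_top))
      rw [e, norm_smul, Real.norm_eq_abs, abs_of_pos (by norm_num : (0 : ℝ) < 2)]
      exact mul_le_mul_of_nonneg_left (hA i i1 (i2.trans hm) a w hw) (by norm_num)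
  refine h2.trans ?_
  calc (m.factorial : ℝ) * (B * deriv a.d.Φ (2 * lc a w)) * (2 * A) ^ m
      = (m.factorial : ℝ) * B * (2 * A) ^ m * deriv a.d.Φ (2 * lc a w) := by ring
    _ ≤ C * deriv a.d.Φ (2 * lc a w) := mul_le_mul_of_nonneg_right (hC m hm) (dΦ_pos a _).le

/-! ## The profile -/

/-- Smooth functions on a bounded interval. -/
theorem bd_on {f : ℝ → ℝ} (hf : ContDiff ℝ ∞ f) (a b : ℝ) (m : ℕ) :
    ∃ C, ∀ t ∈ Icc a b, |iteratedDeriv m f t| ≤ C := by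
  obtain ⟨C, hC⟩ := (isCompact_Icc (a := a) (b := b)).exists_bound_of_continuousOn
    (it_sm hf m).continuous.continuousOn
  exact ⟨C, fun t ht => by simpa using hC t ht⟩

/-- **Functions vanishing to the second order.** -/
theorem van2 {f : ℝ → ℝ} (hf : ContDiff ℝ ∞ f) (h0 : f 0 = 0) (h1 : deriv f 0 = 0) (b : ℝ)
    (K : ℕ) : ∃ C, 1 ≤ C ∧ (∀ t, 0 ≤ t → t ≤ b → |f t| ≤ C * t ^ 2) ∧
      (∀ t, 0 ≤ t → t ≤ b → |deriv f t| ≤ C * t) ∧
      ∀ m ≤ K, ∀ t, 0 ≤ t → t ≤ b → |iteratedDeriv m f t| ≤ C := by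
  obtain ⟨A, A1, hA⟩ := max_const (K + 2) (P := fun m C => ∀ t ∈ Icc (0 : ℝ) b,
    |iteratedDeriv m f t| ≤ C) (fun j C C' h1 h2 t ht => (h2 t ht).trans h1) fun m =>
      bd_on hf 0 b m
  have key : ∀ g : ℝ → ℝ, ContDiff ℝ ∞ g → g 0 = 0 → ∀ t, 0 ≤ t → ∀ B,
      (∀ v ∈ Icc 0 t, |deriv g v| ≤ B) → |g t| ≤ B * t := by
    intro g hg g0 t ht B hB
    have h := df_le hg (s := t) (t := 0) (B := B) fun v hv => by
      rw [uIcc_of_ge ht] at hv
      exact hB v hv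
    rwa [g0, sub_zero, sub_zero, abs_of_nonneg ht] at h
  have s1 : ContDiff ℝ ∞ (deriv f) := (contDiff_infty_iff_deriv.1 hf).2
  have e1 : ∀ t, 0 ≤ t → t ≤ b → |deriv f t| ≤ A * t := fun t ht hb =>
    key (deriv f) s1 h1 t ht A fun v hv => by
      have := hA 2 (by omega) v ⟨hv.1, hv.2.trans hb⟩
      rwa [iteratedDeriv_succ, iteratedDeriv_one] at this
  refine ⟨A, A1, fun t ht hb => ?_, e1, fun m hm t ht hb => hA m (by omega) t ⟨ht, hb⟩⟩
  have := key f hf h0 t ht (A * t) fun v hv =>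
    (e1 v hv.1 (hv.2.trans hb)).trans (mul_le_mul_of_nonneg_left hv.2 (by linarith))
  calc |f t| ≤ A * t * t := this
    _ = A * t ^ 2 := by ring

theorem S_near {e₁ : ℝ} (he : 0 < e₁) {s : ℝ} (hs : s ≤ 400) : prS e₁ s = Fs (2 ^ 2) s :=
  (H349.EP.pp_ok he).Ph_eq (by unfold rp; linarith)

theorem S_zero {e₁ : ℝ} (he : 0 < e₁) : prS e₁ 0 = 0 := by
  rw [S_near he (by norm_num)]
  unfold Fs
  rw [zero_mul]

theorem dS_zero {e₁ : ℝ} (he : 0 < e₁) : deriv (prS e₁) 0 = 1 / 2 := by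
  have h1 : prS e₁ =ᶠ[𝓝 0] Fs (2 ^ 2) := by
    filter_upwards [Iio_mem_nhds (show (0 : ℝ) < 400 by norm_num)] with s hs
    exact S_near he hs.le
  rw [h1.deriv_eq, ((d2_Fs (2 ^ 2)).d1 0).deriv]
  unfold Fs1
  rw [mul_zero, St_zero_arg]
  norm_num

/-- `S(s) - s / 2`. -/
def S4 (e₁ : ℝ) (s : ℝ) : ℝ := prS e₁ s - s / 2

theorem S4_sm {e₁ : ℝ} (he : 0 < e₁) : ContDiff ℝ ∞ (S4 e₁) :=
  (prS_sm he).sub (contDiff_id.div_const 2)

/-- **The profile near `0`.** -/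
theorem S4_bd {e₁ : ℝ} (he : 0 < e₁) (b : ℝ) (K : ℕ) : ∃ C, 1 ≤ C ∧
    (∀ t, 0 ≤ t → t ≤ b → |S4 e₁ t| ≤ C * t ^ 2) ∧
    (∀ t, 0 ≤ t → t ≤ b → |deriv (S4 e₁) t| ≤ C * t) ∧
    ∀ m ≤ K, ∀ t, 0 ≤ t → t ≤ b → |iteratedDeriv m (S4 e₁) t| ≤ C := by
  refine van2 (S4_sm he) ?_ ?_ b K
  · unfold S4
    rw [S_zero he]; norm_num
  · have h1 : HasDerivAt (prS e₁) (1 / 2) 0 := by
      have := ((prS_sm he).differentiable (by simp) 0).hasDerivAt
      rwa [dS_zero he] at this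
    have h2 := h1.sub ((hasDerivAt_id (0 : ℝ)).div_const 2)
    have h3 : HasDerivAt (S4 e₁) (1 / 2 - 1 / 2) 0 := h2
    rw [h3.deriv, sub_self]

/-- The profile on a bounded interval. -/
theorem S_bd {e₁ : ℝ} (he : 0 < e₁) (b : ℝ) (K : ℕ) : ∃ C, 1 ≤ C ∧
    ∀ m ≤ K, ∀ t, 0 ≤ t → t ≤ b → |iteratedDeriv m (prS e₁) t| ≤ C := by
  obtain ⟨C, C1, hC⟩ := max_const K (P := fun m C => ∀ t ∈ Icc (0 : ℝ) b,
    |iteratedDeriv m (prS e₁) t| ≤ C) (fun j C C' h1 h2 t ht => (h2 t ht).trans h1) fun m =>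
      bd_on (prS_sm he) 0 b m
  exact ⟨C, C1, fun m hm t h1 h2 => hC m hm t ⟨h1, h2⟩⟩

end Vale.Agent.P088.R2.H644.B1
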